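import Vale.Agent.P334.Final

namespace Vale.Agent.Results.P334.A_upper

open Vale.Agent.P325 Vale.Agent.P334

theorem result (ε : ℝ) (hε : 0 < ε) :
    ∃ (f : Inst → List ℕ) (M : Turing.TM2ComputableInPolyTime codeInst (bList bNat) f),
      (∀ k, Finite (M.tm.Γ k)) ∧
      ∀ I : Inst, Valid I → ∃ hS : (f I).toFinset.Nonempty, Feas I (f I).toFinset ∧
        ∀ (O : Finset ℕ) (hO : O.Nonempty), Feas I O →
          (cost I (f I).toFinset hS : ℝ) ≤ (1 + 2 / Real.exp 1 + ε) * (cost I O hO : ℝ) :=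
  upper hε

end Vale.Agent.Results.P334.A_upper
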