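import Vale.Agent.P334.Final
import Vale.Agent.P334.Low.Lower

namespace Vale.Agent.Results.P334.B_both

open Vale.Agent.P325 Vale.Agent.P334

theorem result (ε : ℝ) (hε : 0 < ε) :
    (∃ (f : Inst → List ℕ) (M : Turing.TM2ComputableInPolyTime codeInst (bList bNat) f),
      (∀ k, Finite (M.tm.Γ k)) ∧
      ∀ I : Inst, Valid I → ∃ hS : (f I).toFinset.Nonempty, Feas I (f I).toFinset ∧
        ∀ (O : Finset ℕ) (hO : O.Nonempty), Feas I O →
          (cost I (f I).toFinset hS : ℝ) ≤ (1 + 2 / Real.exp 1 + ε) * (cost I O hO : ℝ)) ∧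
    ∃ (g : CNF → Inst × ℚ) (M : Turing.TM2ComputableInPolyTime codeCNF (bPair codeInst bRat) g),
      (∀ k, Finite (M.tm.Γ k)) ∧
      ∀ φ : CNF, Valid (g φ).1 ∧ 0 < (g φ).2 ∧
        (Sat φ → ∃ (S : Finset ℕ) (hS : S.Nonempty),
          Feas (g φ).1 S ∧ cost (g φ).1 S hS ≤ (g φ).2) ∧
        (¬ Sat φ → ∀ (S : Finset ℕ) (hS : S.Nonempty), Feas (g φ).1 S →
          (1 + 2 / Real.exp 1 - ε) * ((g φ).2 : ℝ) ≤ (cost (g φ).1 S hS : ℝ)) :=
  ⟨upper hε, Low.lower ε hε⟩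

end Vale.Agent.Results.P334.B_both
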